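import Mathlib

set_option autoImplicit false
set_option linter.unusedSectionVars false

namespace Crest.Agent.Tal71

open Finset

variable {α : Type} [Fintype α] [DecidableEq α] {R : ℕ}

/-- The set `P` has too many points whose time exceeds `i`. -/
def Viol (τ : α → Fin (R + 1)) (i : Fin (R + 1)) (P : Finset α) : Prop :=
  P.card ≤ 4 ^ (i.val + 1) * (P.filter (fun x => i < τ x)).card

open Classical in
/-- The largest chain element violating at some level `≤ i`. -/
noncomputable def Y (C : Finset α → Finset (Finset α)) (A : Finset α) (τ : α → Fin (R + 1))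
    (i : Fin (R + 1)) : Finset α :=
  ((C A).filter (fun P => ∃ i0 ≤ i, Viol τ i0 P)).sup id

theorem sub_Y {C : Finset α → Finset (Finset α)} {A : Finset α} {τ : α → Fin (R + 1)}
    {i i0 : Fin (R + 1)} {P : Finset α} (hP : P ∈ C A) (hi : i0 ≤ i) (hv : Viol τ i0 P) :
    P ⊆ Y C A τ i := by
  classical
  exact Finset.le_sup (f := id) (Finset.mem_filter.2 ⟨hP, i0, hi, hv⟩)

theorem Y_sub {C : Finset α → Finset (Finset α)} {A : Finset α} {τ : α → Fin (R + 1)}
    {i : Fin (R + 1)} {T : Finset α}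
    (h : ∀ P ∈ C A, ∀ i0 ≤ i, Viol τ i0 P → P ⊆ T) : Y C A τ i ⊆ T := by
  classical
  refine Finset.sup_le (f := id) ?_
  intro P hP
  obtain ⟨h1, i0, h2, h3⟩ := Finset.mem_filter.1 hP
  exact h P h1 i0 h2 h3

theorem Y_mono (C : Finset α → Finset (Finset α)) (A : Finset α) (τ : α → Fin (R + 1)) :
    Monotone (Y C A τ) := fun _ _ hij =>
  Y_sub fun _ hP _ hi hv => sub_Y hP (hi.trans hij) hv

theorem Y_cases {C : Finset α → Finset (Finset α)} {A : Finset α}
    (hch : ∀ P ∈ C A, ∀ P' ∈ C A, P ⊆ P' ∨ P' ⊆ P) (τ : α → Fin (R + 1)) (i : Fin (R + 1)) :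
    Y C A τ i = ∅ ∨ (Y C A τ i ∈ C A ∧ ∃ i0 ≤ i, Viol τ i0 (Y C A τ i)) := by
  classical
  have := Finset.sup_mem (s := {P : Finset α | P = ∅ ∨ (P ∈ C A ∧ ∃ i0 ≤ i, Viol τ i0 P)})
    (Or.inl rfl) (by
      rintro P (rfl | hP) P' (rfl | hP')
      · left; simp
      · right; simpa using hP'
      · right; simpa using hP
      · rcases hch P hP.1 P' hP'.1 with h | h
        · right
          rw [sup_eq_right.2 h]
          exact hP'
        · right
          rw [sup_eq_left.2 h]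
          exact hP) ((C A).filter (fun P => ∃ i0 ≤ i, Viol τ i0 P)) id
    (fun P hP => Or.inr (Finset.mem_filter.1 hP))
  exact this

/-- The reset times. -/
noncomputable def rs (τ : α → Fin (R + 1)) (Z : Fin (R + 1) → Finset α) (x : α) : Fin (R + 1) :=
  (insert (τ x) (univ.filter (fun i => x ∈ Z i))).min' (insert_nonempty _ _)

theorem rs_le_iff {τ : α → Fin (R + 1)} {Z : Fin (R + 1) → Finset α} (hZ : Monotone Z) (x : α)
    (i : Fin (R + 1)) : rs τ Z x ≤ i ↔ τ x ≤ i ∨ x ∈ Z i := by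
  constructor
  · intro h
    have := Finset.min'_mem (insert (τ x) (univ.filter (fun i => x ∈ Z i))) (insert_nonempty _ _)
    rcases Finset.mem_insert.1 this with h1 | h1
    · left
      rw [← h1]
      exact h
    · right
      exact hZ h (Finset.mem_filter.1 h1).2
  · rintro (h | h)
    · exact (Finset.min'_le _ _ (Finset.mem_insert_self _ _)).trans h
    · exact Finset.min'_le _ _ (Finset.mem_insert_of_mem (by simpa using h))

def V (σ τ : α → Fin (R + 1)) (ab : Fin (R + 1) × Fin (R + 1)) : Finset α :=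
  univ.filter (fun x => σ x = ab.1 ∧ τ x = ab.2 ∧ ab.1 < ab.2)

def prof (σ τ : α → Fin (R + 1)) (ab : Fin (R + 1) × Fin (R + 1)) : ℕ := (V σ τ ab).card

def Mi (n : Fin (R + 1) × Fin (R + 1) → ℕ) (i : Fin (R + 1)) : ℕ :=
  ∑ ab ∈ univ.filter (fun ab : Fin (R + 1) × Fin (R + 1) => ab.1 ≤ i ∧ i < ab.2), n ab

def mm (n : Fin (R + 1) × Fin (R + 1) → ℕ) : ℕ := ∑ ab, n ab

def Df (σ τ : α → Fin (R + 1)) : Finset α := univ.filter (fun x => σ x < τ x)

theorem Mi_prof (σ τ : α → Fin (R + 1)) (i : Fin (R + 1)) :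
    Mi (prof σ τ) i = (univ.filter (fun x => σ x ≤ i ∧ i < τ x)).card := by
  rw [Finset.card_eq_sum_card_fiberwise (f := fun x => (σ x, τ x))
    (t := univ.filter (fun ab : Fin (R + 1) × Fin (R + 1) => ab.1 ≤ i ∧ i < ab.2))
    (by intro x hx; simpa using hx)]
  refine Finset.sum_congr rfl fun ab hab => ?_
  simp only [mem_filter, mem_univ, true_and] at hab
  unfold prof V
  congr 1
  ext x
  simp only [mem_filter, mem_univ, true_and, Prod.ext_iff]
  constructor
  · rintro ⟨h1, h2, _⟩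
    exact ⟨⟨h1 ▸ hab.1, h2 ▸ hab.2⟩, h1, h2⟩
  · rintro ⟨_, h1, h2⟩
    exact ⟨h1, h2, lt_of_le_of_lt hab.1 hab.2⟩

theorem V_eq (σ τ : α → Fin (R + 1)) (ab : Fin (R + 1) × Fin (R + 1)) :
    V σ τ ab = (Df σ τ).filter (fun x => (σ x, τ x) = ab) := by
  ext x
  simp only [V, Df, mem_filter, mem_univ, true_and, Prod.ext_iff]
  constructor
  · rintro ⟨h1, h2, h3⟩
    exact ⟨by rw [h1, h2]; exact h3, h1, h2⟩
  · rintro ⟨h0, h1, h2⟩
    exact ⟨h1, h2, by rw [← h1, ← h2]; exact h0⟩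

theorem mm_prof (σ τ : α → Fin (R + 1)) : mm (prof σ τ) = (Df σ τ).card := by
  rw [Finset.card_eq_sum_card_fiberwise (f := fun x => (σ x, τ x)) (t := univ)
    (by intro x _; simp)]
  refine Finset.sum_congr rfl fun ab _ => ?_
  rw [prof, V_eq]

theorem prod_prof (σ τ : α → Fin (R + 1)) (c : Fin (R + 1) × Fin (R + 1) → ℝ) :
    ∏ ab, c ab ^ prof σ τ ab = ∏ x ∈ Df σ τ, c (σ x, τ x) := by
  rw [← Finset.prod_fiberwise_of_maps_to (g := fun x => (σ x, τ x)) (t := univ)
    (by intro x _; simp)]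
  refine Finset.prod_congr rfl fun ab _ => ?_
  rw [prof, V_eq, ← Finset.prod_const]
  refine Finset.prod_congr rfl fun x hx => ?_
  rw [(Finset.mem_filter.1 hx).2]

def Adm (F : Finset (Finset α)) (C : Finset α → Finset (Finset α)) (σ : α → Fin (R + 1))
    (n : Fin (R + 1) × Fin (R + 1) → ℕ) (AY : Finset α × (Fin (R + 1) → Finset α)) : Prop :=
  AY.1 ∈ F ∧ Monotone AY.2 ∧ (∀ i, ∀ x ∈ AY.2 i, σ x ≤ i) ∧
    (∀ i, (AY.2 i).card ≤ 4 ^ (i.val + 1) * mm n) ∧
    ∀ i, ∀ P ∈ C AY.1, ¬ P ⊆ AY.2 i →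
      4 ^ (i.val + 1) * ((P.filter (fun x => i < σ x)).card + Mi n i) < P.card

open Classical in
noncomputable def Q (F : Finset (Finset α)) (C : Finset α → Finset (Finset α))
    (σ : α → Fin (R + 1)) (n : Fin (R + 1) × Fin (R + 1) → ℕ) : Fin (R + 1) → Finset α :=
  if h : ∃ AY, Adm F C σ n AY then h.choose.2 else fun _ => ∅

theorem card_Q (F : Finset (Finset α)) (C : Finset α → Finset (Finset α))
    (σ : α → Fin (R + 1)) (n : Fin (R + 1) × Fin (R + 1) → ℕ) (i : Fin (R + 1)) :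
    (Q F C σ n i).card ≤ 4 ^ (i.val + 1) * mm n := by
  unfold Q
  split_ifs with h
  · exact h.choose_spec.2.2.2.1 i
  · simp

def Rel (F : Finset (Finset α)) (C : Finset α → Finset (Finset α)) (σ τ : α → Fin (R + 1)) :
    Prop :=
  (∀ x, σ x ≤ τ x) ∧ 1 ≤ mm (prof σ τ) ∧ ∀ x, σ x < τ x → x ∈ Q F C σ (prof σ τ) (σ x)

theorem cover (F : Finset (Finset α)) (C : Finset α → Finset (Finset α))
    (hsub : ∀ A, ∀ P ∈ C A, P ⊆ A) (hch : ∀ A, ∀ P ∈ C A, ∀ P' ∈ C A, P ⊆ P' ∨ P' ⊆ P)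
    (τ : α → Fin (R + 1)) (hbad : ∀ A ∈ F, ∃ i, ∃ P ∈ C A, P.Nonempty ∧ Viol τ i P)
    (A : Finset α) (hA : A ∈ F) : ∃ σ, Rel F C σ τ ∧ Df σ τ ⊆ A := by
  classical
  let X : Finset α → Fin (R + 1) → Finset α := fun B i => (Y C B τ i).filter (fun x => i < τ x)
  obtain ⟨A', hA', hmin⟩ := Finset.exists_min_image (F.filter (fun B => ∀ i, X B i ⊆ A))
    (fun B => ∑ i, (X B i).card) ⟨A, Finset.mem_filter.2 ⟨hA, fun i =>
      (Finset.filter_subset _ _).trans (Y_sub fun P hP _ _ _ => hsub A P hP)⟩⟩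
  obtain ⟨hA'F, hA'X⟩ := Finset.mem_filter.1 hA'
  set σ := rs τ (Y C A' τ) with hσ
  have hle : ∀ x i, σ x ≤ i ↔ τ x ≤ i ∨ x ∈ Y C A' τ i := rs_le_iff (Y_mono C A' τ)
  have hX : ∀ i, X A' i = univ.filter (fun x => σ x ≤ i ∧ i < τ x) := by
    intro i
    ext x
    simp only [X, mem_filter, mem_univ, true_and, hle]
    constructor
    · rintro ⟨h1, h2⟩
      exact ⟨Or.inr h1, h2⟩
    · rintro ⟨h1 | h1, h2⟩
      · exact absurd h1 (not_le.2 h2)
      · exact ⟨h1, h2⟩
  have hXD : ∀ i, X A' i ⊆ Df σ τ := by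
    intro i x hx
    rw [hX] at hx
    simp only [mem_filter, mem_univ, true_and, Df] at hx ⊢
    exact lt_of_le_of_lt hx.1 hx.2
  have hDX : ∀ x, σ x < τ x → x ∈ X A' (σ x) := by
    intro x hx
    rw [hX]
    simp [hx]
  have hστ : ∀ x, σ x ≤ τ x := fun x => (hle x _).2 (Or.inl le_rfl)
  have hadm : Adm F C σ (prof σ τ) (A', Y C A' τ) := by
    refine ⟨hA'F, Y_mono C A' τ, fun i x hx => (hle x i).2 (Or.inr hx), fun i => ?_,
      fun i P hP hn => ?_⟩
    · rcases Y_cases (hch A') τ i with h | ⟨h1, i0, h2, h3⟩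
      · simp [h]
      · refine h3.trans (Nat.mul_le_mul (Nat.pow_le_pow_right (by norm_num) (by
          have : i0.val ≤ i.val := h2
          omega)) ?_)
        rw [mm_prof]
        refine Finset.card_le_card (Finset.Subset.trans ?_ (hXD i0))
        exact Finset.filter_subset_filter _ (sub_Y h1 le_rfl h3)
    · have hnv : ¬ Viol τ i P := fun hv => hn (sub_Y hP le_rfl hv)
      have hYP : Y C A' τ i ⊆ P := by
        rcases Y_cases (hch A') τ i with h | ⟨h1, -⟩
        · simp [h]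
        · exact (hch A' P hP _ h1).resolve_left hn
      refine lt_of_le_of_lt (Nat.mul_le_mul_left _ ?_) (not_le.1 hnv)
      rw [Mi_prof, ← hX, ← Finset.card_union_of_disjoint]
      · refine Finset.card_le_card ?_
        intro x hx
        rcases Finset.mem_union.1 hx with hx | hx
        · obtain ⟨h1, h2⟩ := Finset.mem_filter.1 hx
          exact Finset.mem_filter.2 ⟨h1, lt_of_lt_of_le h2 (hστ x)⟩
        · obtain ⟨h1, h2⟩ := Finset.mem_filter.1 hx
          exact Finset.mem_filter.2 ⟨hYP h1, h2⟩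
      · rw [Finset.disjoint_left]
        intro x hx hx'
        rw [hX] at hx'
        exact absurd (Finset.mem_filter.1 hx').2.1 (not_le.2 (Finset.mem_filter.1 hx).2)
  have hex : ∃ AY, Adm F C σ (prof σ τ) AY := ⟨_, hadm⟩
  have hQ : Q F C σ (prof σ τ) = hex.choose.2 := by
    unfold Q
    rw [dif_pos hex]
  obtain ⟨b1, b2, b3, -, b5⟩ := hex.choose_spec
  set A'' := hex.choose.1
  set Y'' := hex.choose.2
  have hYY : ∀ i, Y C A'' τ i ⊆ Y'' i := by
    intro i
    refine Y_sub fun P hP i0 hi0 hv => ?_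
    by_contra hn
    have hn0 : ¬ P ⊆ Y'' i0 := fun h => hn (h.trans (b2 hi0))
    refine absurd (b5 i0 P hP hn0) (not_lt.2 (hv.trans (Nat.mul_le_mul_left _ ?_)))
    rw [Mi_prof]
    refine le_trans (Finset.card_le_card ?_) (Finset.card_union_le _ _)
    intro x hx
    obtain ⟨h1, h2⟩ := Finset.mem_filter.1 hx
    rcases lt_or_ge i0 (σ x) with h | h
    · exact Finset.mem_union_left _ (Finset.mem_filter.2 ⟨h1, h⟩)
    · exact Finset.mem_union_right _ (Finset.mem_filter.2 ⟨mem_univ _, h, h2⟩)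
  have hXX : ∀ i, X A'' i ⊆ X A' i := by
    intro i x hx
    obtain ⟨h1, h2⟩ := Finset.mem_filter.1 hx
    rw [hX]
    exact Finset.mem_filter.2 ⟨mem_univ _, b3 i x (hYY i h1), h2⟩
  have hsum := hmin A'' (Finset.mem_filter.2 ⟨b1, fun i => (hXX i).trans (hA'X i)⟩)
  have heq : ∀ i, X A'' i = X A' i := by
    intro i
    have h1 : ∀ j ∈ (univ : Finset (Fin (R + 1))), (X A'' j).card ≤ (X A' j).card :=
      fun j _ => Finset.card_le_card (hXX j)
    have h2 := (Finset.sum_eq_sum_iff_of_le h1).1 (le_antisymm (Finset.sum_le_sum h1) hsum) i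
      (mem_univ _)
    exact Finset.eq_of_subset_of_card_le (hXX i) h2.ge
  refine ⟨σ, ⟨hστ, ?_, fun x hx => ?_⟩, fun x hx => ?_⟩
  · obtain ⟨i, P, hP, hne, hv⟩ := hbad A' hA'F
    rw [mm_prof]
    have h1 : 0 < (P.filter (fun x => i < τ x)).card := by
      have := hne.card_pos
      unfold Viol at hv
      by_contra h0
      rw [Nat.eq_zero_of_not_pos h0] at hv
      omega
    exact le_trans h1 (Finset.card_le_card
      ((Finset.filter_subset_filter _ (sub_Y hP le_rfl hv)).trans (hXD i)))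
  · rw [hQ]
    have := hDX x hx
    rw [← heq] at this
    exact hYY _ (Finset.mem_filter.1 this).1
  · exact hA'X _ (hDX x (Finset.mem_filter.1 hx).2)

open Classical in
theorem count_fiber (F : Finset (Finset α)) (C : Finset α → Finset (Finset α))
    (σ : α → Fin (R + 1)) (n : Fin (R + 1) × Fin (R + 1) → ℕ) :
    (univ.filter (fun τ => Rel F C σ τ ∧ prof σ τ = n)).card ≤
      ∏ ab : Fin (R + 1) × Fin (R + 1), (4 ^ (ab.1.val + 1) * mm n).choose (n ab) := by
  have h1 : (univ.filter (fun τ => Rel F C σ τ ∧ prof σ τ = n)).card ≤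
      (Fintype.piFinset (fun ab : Fin (R + 1) × Fin (R + 1) =>
        powersetCard (n ab) (Q F C σ n ab.1))).card := by
    refine Finset.card_le_card_of_injOn (fun τ => V σ τ) ?_ ?_
    · intro τ hτ
      simp only [coe_filter, mem_univ, true_and, Set.mem_ofPred_eq] at hτ
      obtain ⟨⟨-, -, h3⟩, h4⟩ := hτ
      simp only [mem_coe, Fintype.mem_piFinset, mem_powersetCard]
      intro ab
      refine ⟨fun x hx => ?_, by rw [← h4]; rfl⟩
      simp only [V, mem_filter, mem_univ, true_and] at hx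
      have := h3 x (by rw [hx.1, hx.2.1]; exact hx.2.2)
      rwa [h4, hx.1] at this
    · intro τ hτ τ' hτ' h
      simp only [coe_filter, mem_univ, true_and, Set.mem_ofPred_eq] at hτ hτ'
      have key : ∀ τ τ' : α → Fin (R + 1), V σ τ = V σ τ' → ∀ x, σ x < τ x → τ' x = τ x := by
        intro τ τ' h x hx
        have h1 : x ∈ V σ τ (σ x, τ x) := by simp [V, hx]
        rw [h] at h1
        simp only [V, mem_filter, mem_univ, true_and] at h1
        exact h1.1
      funext x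
      rcases (hτ.1.1 x).lt_or_eq with h1 | h1
      · exact (key τ τ' h x h1).symm
      · rcases (hτ'.1.1 x).lt_or_eq with h2 | h2
        · exact key τ' τ h.symm x h2
        · rw [← h1, ← h2]
  refine h1.trans ?_
  rw [Fintype.card_piFinset]
  refine Finset.prod_le_prod' fun ab _ => ?_
  rw [Finset.card_powersetCard]
  exact Nat.choose_le_choose _ (card_Q F C σ n ab.1)

open Classical in
theorem count_level (F : Finset (Finset α)) (C : Finset α → Finset (Finset α))
    (σ : α → Fin (R + 1)) (c : Fin (R + 1) × Fin (R + 1) → ℝ) (hc : ∀ ab, 0 ≤ c ab) (m : ℕ) :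
    ∑ τ ∈ univ.filter (fun τ => Rel F C σ τ ∧ mm (prof σ τ) = m), ∏ ab, c ab ^ prof σ τ ab ≤
      ∏ ab : Fin (R + 1) × Fin (R + 1), (c ab + 1) ^ (4 ^ (ab.1.val + 1) * m) := by
  let T := Fintype.piFinset (fun ab : Fin (R + 1) × Fin (R + 1) =>
    range (4 ^ (ab.1.val + 1) * m + 1))
  have hmap : ∀ τ ∈ univ.filter (fun τ => Rel F C σ τ ∧ mm (prof σ τ) = m), prof σ τ ∈ T := by
    intro τ hτ
    obtain ⟨-, -, h2⟩ := Finset.mem_filter.1 hτ
    simp only [T, Fintype.mem_piFinset, mem_range]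
    intro ab
    have h3 : prof σ τ ab ≤ mm (prof σ τ) :=
      Finset.single_le_sum (f := prof σ τ) (fun _ _ => Nat.zero_le _) (mem_univ ab)
    have h4 : m ≤ 4 ^ (ab.1.val + 1) * m := Nat.le_mul_of_pos_left _ (by positivity)
    omega
  rw [← Finset.sum_fiberwise_of_maps_to hmap]
  have h2 : ∏ ab : Fin (R + 1) × Fin (R + 1), (c ab + 1) ^ (4 ^ (ab.1.val + 1) * m) =
      ∑ n ∈ T, ∏ ab : Fin (R + 1) × Fin (R + 1),
        (c ab ^ n ab * ((4 ^ (ab.1.val + 1) * m).choose (n ab) : ℝ)) := by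
    rw [← Finset.prod_univ_sum (fun ab : Fin (R + 1) × Fin (R + 1) =>
      range (4 ^ (ab.1.val + 1) * m + 1))
      (fun ab k => c ab ^ k * ((4 ^ (ab.1.val + 1) * m).choose k : ℝ))]
    refine Finset.prod_congr rfl fun ab _ => ?_
    rw [add_pow]
    simp
  rw [h2]
  refine Finset.sum_le_sum fun n _ => ?_
  rw [Finset.sum_congr rfl (g := fun _ => ∏ ab, c ab ^ n ab)
    (fun τ hτ => by rw [(Finset.mem_filter.1 hτ).2]), Finset.sum_const, nsmul_eq_mul,
    Finset.prod_mul_distrib, mul_comm]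
  refine mul_le_mul_of_nonneg_left ?_ (Finset.prod_nonneg fun ab _ => pow_nonneg (hc ab) _)
  by_cases hm : mm n = m
  · rw [← Nat.cast_prod, Nat.cast_le, ← hm]
    refine le_trans (Finset.card_le_card ?_) (count_fiber F C σ n)
    intro τ hτ
    simp only [mem_filter, mem_univ, true_and] at hτ ⊢
    exact ⟨hτ.1.1, hτ.2⟩
  · rw [Finset.filter_eq_empty_iff.2]
    · simp only [card_empty, CharP.cast_eq_zero]
      positivity
    · intro τ hτ h
      exact hm (h ▸ (Finset.mem_filter.1 hτ).2.2)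

end Crest.Agent.Tal71
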