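import Crest.Agent.Tal71.Cover

set_option autoImplicit false
set_option linter.unusedSectionVars false

namespace Crest.Agent.Tal71

open Finset

variable {α : Type} [Fintype α] [DecidableEq α] {R : ℕ}

theorem geo_half (ρ : ℝ) (h0 : 0 ≤ ρ) (h1 : ρ ≤ 1 / 2) (n : ℕ) :
    ∑ m ∈ range n, ρ ^ (m + 1) + 2 * ρ ^ (n + 1) ≤ 2 * ρ := by
  induction n with
  | zero => simp
  | succ n ih =>
    rw [Finset.sum_range_succ, pow_succ ρ (n + 1)]
    have := pow_nonneg h0 (n + 1)
    nlinarith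

theorem geo_half' (ρ : ℝ) (h0 : 0 ≤ ρ) (h1 : ρ ≤ 1 / 2) (n : ℕ) :
    ∑ m ∈ range n, ρ ^ (m + 1) ≤ 2 * ρ := by
  have := geo_half ρ h0 h1 n
  have := pow_nonneg h0 (n + 1)
  linarith

open Classical in
theorem count_all (F : Finset (Finset α)) (C : Finset α → Finset (Finset α))
    (σ : α → Fin (R + 1)) (c : Fin (R + 1) × Fin (R + 1) → ℝ) (hc : ∀ ab, 0 ≤ c ab)
    (hs : ∑ ab : Fin (R + 1) × Fin (R + 1), 4 ^ (ab.1.val + 1) * c ab ≤ 1 / 128) :
    ∑ τ ∈ univ.filter (fun τ => Rel F C σ τ), ∏ ab, c ab ^ prof σ τ ab ≤ 3 / 64 := by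
  have hmap : ∀ τ ∈ univ.filter (fun τ => Rel F C σ τ),
      mm (prof σ τ) - 1 ∈ range (Fintype.card α) := by
    intro τ hτ
    have h1 := (Finset.mem_filter.1 hτ).2.2.1
    have h2 : mm (prof σ τ) ≤ Fintype.card α := by
      rw [mm_prof]
      exact Finset.card_le_univ _
    rw [mem_range]
    omega
  rw [← Finset.sum_fiberwise_of_maps_to hmap]
  refine le_trans (Finset.sum_le_sum (g := fun m => (3 / 128 : ℝ) ^ (m + 1)) fun m _ => ?_)
    ((geo_half' _ (by norm_num) (by norm_num) _).trans (by norm_num))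
  have h1 := count_level F C σ (fun ab => 128 * c ab) (fun ab => by have := hc ab; positivity)
    (m + 1)
  have h2 : ∏ ab : Fin (R + 1) × Fin (R + 1), (128 * c ab + 1) ^ (4 ^ (ab.1.val + 1) * (m + 1))
      ≤ 3 ^ (m + 1) := by
    calc _ ≤ ∏ ab : Fin (R + 1) × Fin (R + 1),
          Real.exp (((4 ^ (ab.1.val + 1) * (m + 1) : ℕ) : ℝ) * (128 * c ab)) := by
          refine Finset.prod_le_prod (fun ab _ => by have := hc ab; positivity) fun ab _ => ?_
          rw [Real.exp_nat_mul]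
          exact pow_le_pow_left₀ (by have := hc ab; positivity) (Real.add_one_le_exp _) _
      _ = Real.exp (((m + 1 : ℕ) : ℝ) * (128 *
            ∑ ab : Fin (R + 1) × Fin (R + 1), 4 ^ (ab.1.val + 1) * c ab)) := by
          rw [← Real.exp_sum, Finset.mul_sum, Finset.mul_sum]
          congr 1
          refine Finset.sum_congr rfl fun ab _ => ?_
          push_cast
          ring
      _ ≤ 3 ^ (m + 1) := by
          rw [Real.exp_nat_mul]
          refine pow_le_pow_left₀ (Real.exp_pos _).le ?_ _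
          refine le_trans (Real.exp_le_exp.2 (show _ ≤ 1 by linarith)) ?_
          have := Real.exp_one_lt_d9
          linarith
  have h3 : ∑ τ ∈ (univ.filter (fun τ => Rel F C σ τ)).filter
        (fun τ => mm (prof σ τ) - 1 = m), ∏ ab, c ab ^ prof σ τ ab =
      (1 / 128 : ℝ) ^ (m + 1) * ∑ τ ∈ univ.filter (fun τ => Rel F C σ τ ∧ mm (prof σ τ) = m + 1),
        ∏ ab, (128 * c ab) ^ prof σ τ ab := by
    rw [Finset.mul_sum]
    refine Finset.sum_congr ?_ fun τ hτ => ?_
    · ext τ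
      simp only [mem_filter, mem_univ, true_and]
      constructor
      · rintro ⟨h, h'⟩
        have := h.2.1
        exact ⟨h, by omega⟩
      · rintro ⟨h, h'⟩
        exact ⟨h, by omega⟩
    · rw [← (Finset.mem_filter.1 hτ).2.2, mm, ← Finset.prod_pow_eq_pow_sum,
        ← Finset.prod_mul_distrib]
      refine Finset.prod_congr rfl fun ab _ => ?_
      rw [← mul_pow]
      congr 1
      ring
  rw [h3]
  calc _ ≤ (1 / 128 : ℝ) ^ (m + 1) * 3 ^ (m + 1) :=
        mul_le_mul_of_nonneg_left (h1.trans h2) (by positivity)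
    _ = _ := by rw [← mul_pow]; norm_num

theorem sum_P (q : Fin (R + 1) → ℝ) (hq : ∑ a, q a = 1) :
    ∑ τ : α → Fin (R + 1), ∏ x, q (τ x) = 1 := by
  have := Finset.prod_univ_sum (fun _ : α => (univ : Finset (Fin (R + 1)))) (fun _ a => q a)
  rw [Fintype.piFinset_univ] at this
  rw [← this, hq]
  simp

open Classical in
theorem bad_small (F : Finset (Finset α)) (C : Finset α → Finset (Finset α))
    (hsub : ∀ A, ∀ P ∈ C A, P ⊆ A) (hch : ∀ A, ∀ P ∈ C A, ∀ P' ∈ C A, P ⊆ P' ∨ P' ⊆ P)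
    (p : ℝ) (hp : 0 < p) (q : Fin (R + 1) → ℝ) (hq0 : ∀ a, 0 ≤ q a) (hq1 : ∑ a, q a = 1)
    (hqa : ∀ a : Fin (R + 1), a.val < R → q a = 1024 * 8 ^ a.val * p)
    (hns : ∀ G : Finset (Finset α), (∀ H ∈ F, ∃ S ∈ G, S ⊆ H) → 1 / 2 ≤ ∑ S ∈ G, p ^ S.card) :
    ∑ τ ∈ univ.filter (fun τ : α → Fin (R + 1) =>
      ∀ A ∈ F, ∃ i, ∃ P ∈ C A, P.Nonempty ∧ Viol τ i P), ∏ x, q (τ x) ≤ 3 / 32 := by
  let c : Fin (R + 1) × Fin (R + 1) → ℝ := fun ab =>
    if ab.1 < ab.2 then q ab.2 / (1024 * 8 ^ ab.1.val) else 0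
  have hc : ∀ ab, 0 ≤ c ab := by
    intro ab
    simp only [c]
    split_ifs
    · have := hq0 ab.2
      positivity
    · exact le_rfl
  have hs : ∑ ab : Fin (R + 1) × Fin (R + 1), 4 ^ (ab.1.val + 1) * c ab ≤ 1 / 128 := by
    rw [Fintype.sum_prod_type]
    calc _ ≤ ∑ a : Fin (R + 1), (1 / 128 : ℝ) * (1 / 2) ^ (a.val + 1) := by
          refine Finset.sum_le_sum fun a _ => ?_
          calc _ ≤ ∑ b : Fin (R + 1), (1 / 128 : ℝ) * (1 / 2) ^ (a.val + 1) * q b := by
                refine Finset.sum_le_sum fun b _ => ?_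
                simp only [c]
                have := hq0 b
                split_ifs
                · apply le_of_eq
                  have e : (8 : ℝ) ^ a.val = 4 ^ a.val * 2 ^ a.val := by
                    rw [← mul_pow]; norm_num
                  rw [e, pow_succ, pow_succ, one_div_pow]
                  field_simp
                  ring
                · rw [mul_zero]
                  positivity
            _ = _ := by rw [← Finset.mul_sum, hq1, mul_one]
      _ ≤ 1 / 128 := by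
          rw [← Finset.mul_sum, Fin.sum_univ_eq_sum_range (fun a => (1 / 2 : ℝ) ^ (a + 1))]
          have := geo_half' (1 / 2) (by norm_num) le_rfl (R + 1)
          linarith
  have hw : ∀ σ τ : α → Fin (R + 1), (∀ x, σ x ≤ τ x) →
      (∏ x, q (τ x)) * p ^ (Df σ τ).card = (∏ x, q (σ x)) * ∏ ab, c ab ^ prof σ τ ab := by
    intro σ τ h
    rw [prod_prof, ← Finset.prod_const, Df, Finset.prod_filter, Finset.prod_filter,
      ← Finset.prod_mul_distrib, ← Finset.prod_mul_distrib]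
    refine Finset.prod_congr rfl fun x _ => ?_
    split_ifs with hx
    · have h1 : (σ x).val < R := by
        have : (σ x).val < (τ x).val := hx
        omega
      simp only [c, if_pos hx]
      rw [hqa _ h1]
      field_simp
    · rw [le_antisymm (h x) (not_lt.1 hx)]
  have hP0 : ∀ τ : α → Fin (R + 1), 0 ≤ ∏ x, q (τ x) := fun τ =>
    Finset.prod_nonneg fun x _ => hq0 _
  have h1 : ∀ τ ∈ univ.filter (fun τ : α → Fin (R + 1) =>
      ∀ A ∈ F, ∃ i, ∃ P ∈ C A, P.Nonempty ∧ Viol τ i P), (∏ x, q (τ x)) ≤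
        2 * ∑ σ ∈ univ.filter (fun σ => Rel F C σ τ), (∏ x, q (τ x)) * p ^ (Df σ τ).card := by
    intro τ hτ
    have h2 := hns ((univ.filter (fun σ => Rel F C σ τ)).image (fun σ => Df σ τ)) (by
      intro A hA
      obtain ⟨σ, h3, h4⟩ := cover F C hsub hch τ (Finset.mem_filter.1 hτ).2 A hA
      exact ⟨_, Finset.mem_image_of_mem _ (Finset.mem_filter.2 ⟨mem_univ _, h3⟩), h4⟩)
    have h3 := Finset.sum_image_le_of_nonneg (s := univ.filter (fun σ => Rel F C σ τ))
      (g := fun σ => Df σ τ) (f := fun S : Finset α => p ^ S.card) (fun _ _ => by positivity)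
    rw [← Finset.mul_sum]
    have := hP0 τ
    nlinarith
  refine (Finset.sum_le_sum h1).trans ?_
  rw [← Finset.mul_sum]
  have h4 : ∑ τ ∈ univ.filter (fun τ : α → Fin (R + 1) =>
      ∀ A ∈ F, ∃ i, ∃ P ∈ C A, P.Nonempty ∧ Viol τ i P),
      ∑ σ ∈ univ.filter (fun σ => Rel F C σ τ), (∏ x, q (τ x)) * p ^ (Df σ τ).card ≤ 3 / 64 := by
    calc _ ≤ ∑ τ : α → Fin (R + 1),
          ∑ σ ∈ univ.filter (fun σ => Rel F C σ τ), (∏ x, q (τ x)) * p ^ (Df σ τ).card :=
          Finset.sum_le_sum_of_subset_of_nonneg (Finset.filter_subset _ _) fun τ _ _ =>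
            Finset.sum_nonneg fun σ _ => mul_nonneg (hP0 τ) (by positivity)
      _ = ∑ σ : α → Fin (R + 1),
          ∑ τ ∈ univ.filter (fun τ => Rel F C σ τ), (∏ x, q (τ x)) * p ^ (Df σ τ).card := by
          refine Finset.sum_comm' ?_
          simp
      _ ≤ ∑ σ : α → Fin (R + 1), (∏ x, q (σ x)) * (3 / 64) := by
          refine Finset.sum_le_sum fun σ _ => ?_
          rw [Finset.sum_congr rfl (fun τ hτ => hw σ τ (Finset.mem_filter.1 hτ).2.1),
            ← Finset.mul_sum]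
          exact mul_le_mul_of_nonneg_left (count_all F C σ c hc hs) (hP0 σ)
      _ = 3 / 64 := by rw [← Finset.sum_mul, sum_P q hq1, one_mul]
  linarith

theorem layer_cake (h : α → ℝ) : ∀ (n : ℕ) (A : Finset α) (f : α → ℝ), A.card ≤ n →
    (∀ x ∈ A, 0 ≤ f x) → (∀ y ∈ A, 0 ≤ ∑ x ∈ A.filter (fun x => f y ≤ f x), h x) →
    0 ≤ ∑ x ∈ A, f x * h x := by
  intro n
  induction n with
  | zero =>
    intro A f hA _ _
    rw [Finset.card_eq_zero.1 (Nat.le_zero.1 hA)]
    simp
  | succ n ih =>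
    intro A f hA hf hh
    rcases A.eq_empty_or_nonempty with rfl | hne
    · simp
    obtain ⟨y, hy, hmin⟩ := Finset.exists_min_image A f hne
    have h1 : 0 ≤ ∑ x ∈ A, h x := by
      have := hh y hy
      rwa [Finset.filter_true_of_mem hmin] at this
    have h2 := ih (A.filter (fun x => f y < f x)) (fun x => f x - f y) (by
      have : (A.filter (fun x => f y < f x)).card < A.card :=
        Finset.card_lt_card (Finset.filter_ssubset.2 ⟨y, hy, lt_irrefl _⟩)
      omega) (fun x hx => sub_nonneg.2 (Finset.mem_filter.1 hx).2.le) (by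
      intro z hz
      have := hh z (Finset.mem_filter.1 hz).1
      convert this using 2
      ext x
      have hz2 := (Finset.mem_filter.1 hz).2
      simp only [mem_filter, sub_le_sub_iff_right]
      constructor
      · rintro ⟨⟨a, _⟩, b⟩
        exact ⟨a, b⟩
      · rintro ⟨a, b⟩
        exact ⟨⟨a, lt_of_lt_of_le hz2 b⟩, b⟩)
    have h3 : ∑ x ∈ A, f x * h x = f y * ∑ x ∈ A, h x +
        ∑ x ∈ A.filter (fun x => f y < f x), (f x - f y) * h x := by
      rw [Finset.sum_filter, Finset.mul_sum, ← Finset.sum_add_distrib]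
      refine Finset.sum_congr rfl fun x hx => ?_
      split_ifs with hlt
      · ring
      · rw [le_antisymm (not_lt.1 hlt) (hmin x hx)]
        ring
    rw [h3]
    have := hf y hy
    positivity

theorem sum_time_le (τ : α → Fin (R + 1)) (P : Finset α) (h : ∀ i, ¬ Viol τ i P) :
    0 ≤ ∑ x ∈ P, (1 / 2 - ((τ x).val : ℝ)) := by
  have h1 : ∑ x ∈ P, ((τ x).val : ℝ) =
      ∑ i : Fin (R + 1), ((P.filter (fun x => i < τ x)).card : ℝ) := by
    simp only [Finset.card_filter]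
    push_cast
    rw [Finset.sum_comm]
    refine Finset.sum_congr rfl fun x _ => ?_
    rw [← Finset.sum_filter, Finset.sum_const, nsmul_eq_mul, mul_one]
    congr 1
    rw [Finset.filter_gt_eq_Iio, Fin.card_Iio]
  have h2 : ∀ i : Fin (R + 1), ((P.filter (fun x => i < τ x)).card : ℝ) ≤
      (1 / 4) ^ (i.val + 1) * P.card := by
    intro i
    have h3 : ((4 ^ (i.val + 1) * (P.filter (fun x => i < τ x)).card : ℕ) : ℝ) ≤ P.card :=
      Nat.cast_le.2 (not_le.1 (h i)).le
    push_cast at h3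
    rw [one_div_pow, one_div_mul_eq_div, le_div_iff₀ (by positivity)]
    linarith
  have h4 := Finset.sum_le_sum (s := univ) fun i _ => h2 i
  rw [← Finset.sum_mul, Fin.sum_univ_eq_sum_range (fun a => (1 / 4 : ℝ) ^ (a + 1))] at h4
  have h5 := geo_half' (1 / 4) (by norm_num) (by norm_num) (R + 1)
  rw [Finset.sum_sub_distrib, h1, Finset.sum_const, nsmul_eq_mul]
  have h6 : (0 : ℝ) ≤ P.card := by positivity
  nlinarith

/-- The weight of a point. -/
noncomputable def lam (g : Finset α → ℝ) (A : Finset α) (x : α) : ℝ :=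
  ∑ S ∈ A.powerset, if x ∈ S then g S / S.card else 0

noncomputable def chain (g : Finset α → ℝ) (A : Finset α) : Finset (Finset α) :=
  A.image (fun y => A.filter (fun x => lam g A y ≤ lam g A x))

theorem chain_sub (g : Finset α → ℝ) (A : Finset α) : ∀ P ∈ chain g A, P ⊆ A := by
  intro P hP
  obtain ⟨y, -, rfl⟩ := Finset.mem_image.1 hP
  exact Finset.filter_subset _ _

theorem chain_ch (g : Finset α → ℝ) (A : Finset α) :
    ∀ P ∈ chain g A, ∀ P' ∈ chain g A, P ⊆ P' ∨ P' ⊆ P := by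
  intro P hP P' hP'
  obtain ⟨y, -, rfl⟩ := Finset.mem_image.1 hP
  obtain ⟨z, -, rfl⟩ := Finset.mem_image.1 hP'
  rcases le_total (lam g A y) (lam g A z) with h | h
  · right
    exact Finset.monotone_filter_right _ fun x _ hx => h.trans hx
  · left
    exact Finset.monotone_filter_right _ fun x _ hx => h.trans hx

theorem good_large (g : Finset α → ℝ) (hg : ∀ S, 0 ≤ g S) (h0 : g ∅ ≤ 1 / 2) (A : Finset α)
    (hA : 1 ≤ ∑ S ∈ A.powerset, g S) (τ : α → Fin (R + 1))
    (hgood : ∀ i, ∀ P ∈ chain g A, P.Nonempty → ¬ Viol τ i P) :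
    1 / 4 ≤ ∑ S ∈ univ.erase ∅, g S * ∏ x ∈ S, (16 / 16 ^ (τ x).val : ℝ) := by
  have h1 := layer_cake (fun x => (1 / 2 - ((τ x).val : ℝ))) _ A (lam g A) le_rfl
    (fun x _ => Finset.sum_nonneg fun S _ => by
      have := hg S
      split_ifs
      · positivity
      · exact le_rfl)
    (fun y hy => sum_time_le τ _ fun i => hgood i _ (Finset.mem_image_of_mem _ hy)
      ⟨y, Finset.mem_filter.2 ⟨hy, le_rfl⟩⟩)
  have h2 : ∑ x ∈ A, lam g A x * (1 / 2 - ((τ x).val : ℝ)) =
      ∑ S ∈ A.powerset, g S / S.card * ∑ x ∈ S, (1 / 2 - ((τ x).val : ℝ)) := by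
    simp only [lam, Finset.sum_mul]
    rw [Finset.sum_comm]
    refine Finset.sum_congr rfl fun S hS => ?_
    simp only [ite_mul, zero_mul]
    rw [← Finset.sum_filter, Finset.mul_sum]
    congr 1
    ext x
    simp only [mem_filter]
    exact ⟨fun h => h.2, fun h => ⟨Finset.mem_powerset.1 hS h, h⟩⟩
  have hmem : (∅ : Finset α) ∈ A.powerset := Finset.empty_mem_powerset A
  rw [h2, ← Finset.add_sum_erase _ _ hmem] at h1
  rw [← Finset.add_sum_erase _ _ hmem] at hA
  simp only [sum_empty, mul_zero, zero_add] at h1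
  have h3 : ∀ S ∈ A.powerset.erase ∅, g S * (1 / 2) +
      g S / S.card * ∑ x ∈ S, (1 / 2 - ((τ x).val : ℝ)) ≤
      g S * ∏ x ∈ S, (16 / 16 ^ (τ x).val : ℝ) := by
    intro S hS
    have hne : S.Nonempty := Finset.nonempty_iff_ne_empty.2 (Finset.mem_erase.1 hS).1
    have hc : (0 : ℝ) < S.card := Nat.cast_pos.2 hne.card_pos
    have e1 : g S * (1 / 2) + g S / S.card * ∑ x ∈ S, (1 / 2 - ((τ x).val : ℝ)) =
        g S * (1 - ((∑ x ∈ S, (τ x).val : ℕ) : ℝ) / S.card) := by
      rw [Finset.sum_sub_distrib, Finset.sum_const, nsmul_eq_mul]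
      push_cast
      field_simp
      ring
    rw [e1]
    refine mul_le_mul_of_nonneg_left ?_ (hg S)
    rw [Finset.prod_div_distrib, Finset.prod_const, Finset.prod_pow_eq_pow_sum]
    rcases le_total (∑ x ∈ S, (τ x).val) S.card with h | h
    · have : (1 : ℝ) ≤ 16 ^ S.card / 16 ^ (∑ x ∈ S, (τ x).val) := by
        rw [le_div_iff₀ (by positivity), one_mul]
        exact pow_le_pow_right₀ (by norm_num) h
      have : (0 : ℝ) ≤ ((∑ x ∈ S, (τ x).val : ℕ) : ℝ) / S.card := by positivity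
      linarith
    · have : (1 : ℝ) ≤ ((∑ x ∈ S, (τ x).val : ℕ) : ℝ) / S.card := by
        rw [le_div_iff₀ hc, one_mul]
        exact Nat.cast_le.2 h
      have : (0 : ℝ) ≤ 16 ^ S.card / 16 ^ (∑ x ∈ S, (τ x).val) := by positivity
      linarith
  have h4 := Finset.sum_le_sum h3
  rw [Finset.sum_add_distrib, ← Finset.sum_mul] at h4
  have h5 : ∑ S ∈ A.powerset.erase ∅, g S * ∏ x ∈ S, (16 / 16 ^ (τ x).val : ℝ) ≤
      ∑ S ∈ univ.erase ∅, g S * ∏ x ∈ S, (16 / 16 ^ (τ x).val : ℝ) :=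
    Finset.sum_le_sum_of_subset_of_nonneg (Finset.erase_subset_erase _ (Finset.subset_univ _))
      fun S _ _ => mul_nonneg (hg S) (Finset.prod_nonneg fun x _ => by positivity)
  linarith

theorem expect_prod (q φ : Fin (R + 1) → ℝ) (hq : ∑ a, q a = 1) (S : Finset α) :
    ∑ τ : α → Fin (R + 1), (∏ x, q (τ x)) * ∏ x ∈ S, φ (τ x) = (∑ a, q a * φ a) ^ S.card := by
  have := Finset.prod_univ_sum (fun _ : α => (univ : Finset (Fin (R + 1))))
    (fun x a => q a * if x ∈ S then φ a else 1)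
  rw [Fintype.piFinset_univ] at this
  have e1 : ∀ τ : α → Fin (R + 1), (∏ x, q (τ x)) * ∏ x ∈ S, φ (τ x) =
      ∏ x, (q (τ x) * if x ∈ S then φ (τ x) else 1) := by
    intro τ
    rw [Finset.prod_mul_distrib, Finset.prod_ite_mem, Finset.univ_inter]
  rw [Finset.sum_congr rfl fun τ _ => e1 τ, ← this, ← Finset.prod_const]
  have e2 : ∀ x : α, ∑ a, (q a * if x ∈ S then φ a else 1) =
      if x ∈ S then ∑ a, q a * φ a else 1 := by
    intro x
    split_ifs
    · rfl
    · simpa using hq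
  rw [Finset.prod_congr rfl fun x _ => e2 x, Finset.prod_ite_mem, Finset.univ_inter]

theorem exists_levels (p : ℝ) (hp : 0 < p) : ∃ (R : ℕ) (q : Fin (R + 1) → ℝ), (∀ a, 0 ≤ q a) ∧
    ∑ a, q a = 1 ∧ (∀ a : Fin (R + 1), a.val < R → q a = 1024 * 8 ^ a.val * p) ∧
    ∀ a : Fin (R + 1), q a ≤ 1024 * 8 ^ a.val * p := by
  have hex : ∃ R : ℕ, 1 ≤ ∑ a ∈ range (R + 1), 1024 * (8 : ℝ) ^ a * p := by
    obtain ⟨n, hn⟩ := pow_unbounded_of_one_lt (1 / p) (show (1 : ℝ) < 8 by norm_num)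
    refine ⟨n, ?_⟩
    rw [Finset.sum_range_succ]
    have h1 : 0 ≤ ∑ a ∈ range n, 1024 * (8 : ℝ) ^ a * p := by positivity
    rw [div_lt_iff₀ hp] at hn
    nlinarith
  classical
  let R := Nat.find hex
  have hR : 1 ≤ ∑ a ∈ range (R + 1), 1024 * (8 : ℝ) ^ a * p := Nat.find_spec hex
  have hR' : ∑ a ∈ range R, 1024 * (8 : ℝ) ^ a * p ≤ 1 := by
    rcases Nat.eq_zero_or_pos R with h | h
    · simp [h]
    · have := Nat.find_min hex (m := R - 1) (by omega)
      rw [Nat.sub_add_cancel h] at this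
      exact (not_le.1 this).le
  rw [Finset.sum_range_succ] at hR
  let q0 : ℕ → ℝ := fun a => if a < R then 1024 * 8 ^ a * p else
    1 - ∑ a ∈ range R, 1024 * (8 : ℝ) ^ a * p
  refine ⟨R, fun a => q0 a.val, fun a => ?_, ?_, fun a ha => ?_, fun a => ?_⟩
  · simp only [q0]
    split_ifs
    · positivity
    · linarith
  · rw [Fin.sum_univ_eq_sum_range q0, Finset.sum_range_succ,
      Finset.sum_congr rfl (g := fun a => 1024 * (8 : ℝ) ^ a * p)
        (fun a ha => if_pos (mem_range.1 ha))]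
    simp [q0]
  · exact if_pos ha
  · simp only [q0]
    split_ifs with h
    · exact le_rfl
    · have : a.val = R := by omega
      rw [this]
      linarith

theorem main (F : Finset (Finset α)) (r p : ℝ) (hp : 0 < p) (hpr : 2 ^ 20 * p ≤ r)
    (g : Finset α → ℝ) (hg : ∀ S : Finset α, 0 ≤ g S)
    (hcov : ∀ H ∈ F, 1 ≤ ∑ S ∈ H.powerset, g S)
    (hcost : ∑ S : Finset α, g S * r ^ S.card ≤ 1 / 2) :
    ∃ G : Finset (Finset α), (∀ H ∈ F, ∃ S ∈ G, S ⊆ H) ∧ ∑ S ∈ G, p ^ S.card ≤ 1 / 2 := by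
  classical
  by_contra hcon
  have hns : ∀ G : Finset (Finset α), (∀ H ∈ F, ∃ S ∈ G, S ⊆ H) →
      1 / 2 ≤ ∑ S ∈ G, p ^ S.card := fun G hG => by
    by_contra h
    exact hcon ⟨G, hG, (not_le.1 h).le⟩
  have hr : 0 < r := lt_of_lt_of_le (by positivity) hpr
  obtain ⟨R, q, hq0, hq1, hqa, hqb⟩ := exists_levels p hp
  have hbad := bad_small F (chain g) (chain_sub g) (chain_ch g) p hp q hq0 hq1 hqa hns
  rw [← Finset.add_sum_erase _ _ (mem_univ ∅)] at hcost
  have hrest : 0 ≤ ∑ S ∈ univ.erase ∅, g S * r ^ S.card :=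
    Finset.sum_nonneg fun S _ => mul_nonneg (hg S) (by positivity)
  simp only [card_empty, pow_zero, mul_one] at hcost
  have hg0 := hg ∅
  have hP0 : ∀ τ : α → Fin (R + 1), 0 ≤ ∏ x, q (τ x) := fun τ =>
    Finset.prod_nonneg fun x _ => hq0 _
  let Z : (α → Fin (R + 1)) → ℝ := fun τ =>
    ∑ S ∈ univ.erase ∅, g S * ∏ x ∈ S, (16 / 16 ^ (τ x).val : ℝ)
  have hZ0 : ∀ τ, 0 ≤ Z τ := fun τ => Finset.sum_nonneg fun S _ =>
    mul_nonneg (hg S) (Finset.prod_nonneg fun x _ => by positivity)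
  have hφ0 : 0 ≤ ∑ a, q a * (16 / 16 ^ a.val : ℝ) :=
    Finset.sum_nonneg fun a _ => mul_nonneg (hq0 a) (by positivity)
  have hφ : ∑ a, q a * (16 / 16 ^ a.val : ℝ) ≤ r / 32 := by
    calc _ ≤ ∑ a : Fin (R + 1), 2 ^ 15 * p * (1 / 2 : ℝ) ^ (a.val + 1) := by
          refine Finset.sum_le_sum fun a _ => ?_
          refine (mul_le_mul_of_nonneg_right (hqb a) (by positivity)).trans (le_of_eq ?_)
          have e : (16 : ℝ) ^ a.val = 8 ^ a.val * 2 ^ a.val := by
            rw [← mul_pow]; norm_num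
          rw [e, one_div_pow]
          field_simp
          ring
      _ ≤ r / 32 := by
          rw [← Finset.mul_sum, Fin.sum_univ_eq_sum_range (fun a => (1 / 2 : ℝ) ^ (a + 1))]
          have := geo_half' (1 / 2) (by norm_num) le_rfl (R + 1)
          nlinarith
  have hE : ∑ τ : α → Fin (R + 1), (∏ x, q (τ x)) * Z τ ≤ 1 / 64 := by
    simp only [Z, Finset.mul_sum]
    rw [Finset.sum_comm]
    calc _ ≤ ∑ S ∈ univ.erase ∅, g S * r ^ S.card * (1 / 32) := by
          refine Finset.sum_le_sum fun S hS => ?_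
          have e : ∀ τ : α → Fin (R + 1), (∏ x, q (τ x)) *
              (g S * ∏ x ∈ S, (16 / 16 ^ (τ x).val : ℝ)) =
              g S * ((∏ x, q (τ x)) * ∏ x ∈ S, (16 / 16 ^ (τ x).val : ℝ)) := fun τ => by ring
          rw [Finset.sum_congr rfl fun τ _ => e τ, ← Finset.mul_sum,
            expect_prod q (fun a => (16 / 16 ^ a.val : ℝ)) hq1 S, mul_assoc]
          refine mul_le_mul_of_nonneg_left ?_ (hg S)
          refine (pow_le_pow_left₀ hφ0 hφ _).trans ?_
          have hne : S.Nonempty := Finset.nonempty_iff_ne_empty.2 (Finset.mem_erase.1 hS).1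
          rw [div_eq_mul_one_div, mul_pow]
          refine mul_le_mul_of_nonneg_left ?_ (by positivity)
          exact pow_le_of_le_one (by norm_num) (by norm_num) hne.card_pos.ne'
      _ ≤ 1 / 64 := by
          rw [← Finset.sum_mul]
          linarith
  have htot := sum_P (α := α) q hq1
  rw [← Finset.sum_filter_add_sum_filter_not univ (fun τ : α → Fin (R + 1) =>
      ∀ A ∈ F, ∃ i, ∃ P ∈ chain g A, P.Nonempty ∧ Viol τ i P)] at htot
  have hgood : ∑ τ ∈ univ.filter (fun τ : α → Fin (R + 1) =>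
      ¬ ∀ A ∈ F, ∃ i, ∃ P ∈ chain g A, P.Nonempty ∧ Viol τ i P), (∏ x, q (τ x)) * (1 / 4) ≤
      ∑ τ : α → Fin (R + 1), (∏ x, q (τ x)) * Z τ := by
    refine le_trans (Finset.sum_le_sum fun τ hτ => ?_)
      (Finset.sum_le_sum_of_subset_of_nonneg (Finset.filter_subset _ _) fun τ _ _ =>
        mul_nonneg (hP0 τ) (hZ0 τ))
    refine mul_le_mul_of_nonneg_left ?_ (hP0 τ)
    have h1 := (Finset.mem_filter.1 hτ).2
    push Not at h1
    obtain ⟨A, hA, h2⟩ := h1
    exact good_large g hg (by linarith) A (hcov A hA) τ h2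
  rw [← Finset.sum_mul] at hgood
  linarith

end Crest.Agent.Tal71
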